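import Crest.Agent.X262.Lft36.Red
import Crest.Agent.X262.Lft78.Defs
import Crest.Agent.X262.Emb71.Fn
import Crest.Agent.X262.Emb96.Tre
import Crest.Agent.X262.Emb10.Pt

/-!
# Row 262, road B, EMB, local lifting (helper36), part 2: `locStmt`

* `Par`, `Gd`  : equal points, points of the graph;  `gd_of_not_const`, `exists_sec`;
* `step`       : a bad point lowers the degree;  `exists_G` : the first approximation;
* `locStmt`.
-/

set_option autoImplicit false
set_option linter.unusedSectionVars false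

noncomputable section

namespace Crest.Agent.X262.Lft36

open Polynomial Crest.Agent.X277 Crest.Agent.X277.BD Crest.Agent.X277.BD.Cyc
open Crest.Agent.X262.Vb Crest.Agent.X262.Bub96 Crest.Agent.X262.Bub96.Tr Crest.Agent.X262.Emb
open Crest.Agent.X262.Node22 (scl chr pv_scl chr_ne)
open Crest.Agent.X262.Emb71 (Fn fn_of fn_pv fn_ev pv_upq mh_upq)
open Crest.Agent.X262.Emb96 (Wd)
open Crest.Agent.X262.Lft78 (RedOn LocStmt)

variable {J : Type} [Fintype J] [DecidableEq J] {io : Option J → Type} [∀ j, Fintype (io j)]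
  [∀ j, DecidableEq (io j)] {A A' : Type} [Fintype A] [Fintype A'] {T : Tgt (bs io) A}
  {T' : Tgt io A'} {d : J → ℕ} (G : Gr T T' d)

section Tree

variable {k : Type} [Field k] [Algebra ℂ k]

theorem wd_symm {ι : Type} {u w : ι → k} (h : Wd u w) : Wd w u := fun i i' => by
  rw [mul_comm, ← h, mul_comm]

/-- the same point -/
def Par (y z : Pnt (bs io) k) : Prop := ∀ j, Wd (y j) (z j)

theorem Par.scl {y z : Pnt (bs io) k} (h : Par y z) (hy : NZ y) (hz : NZ z) :
    ∃ s : J → k, (∀ j, s j ≠ 0) ∧ y = scl s z := by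
  choose s hs using fun j => (h j).eq_smul (hz j)
  refine ⟨s, fun j h0 => ?_, _root_.funext fun j => _root_.funext (hs j)⟩
  obtain ⟨i, hi⟩ := hy j
  exact hi (by rw [hs, h0, zero_mul])

/-- the point lies on the graph -/
def Gd (y : Pnt io k) : Prop := ∀ l, Wd (y none) fun a => pv (prP y) (G.q l a)

theorem wd_of_par {u : io none → k} {y z : Pnt (bs io) k} (h : Par y z) (hy : NZ y) (hz : NZ z)
    {l : G.L} (hu : Wd u fun a => pv y (G.q l a)) : Wd u fun a => pv z (G.q l a) := by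
  obtain ⟨s, h1, rfl⟩ := h.scl hy hz
  intro a b
  have h2 := hu a b
  simp only [pv_scl (G.hom l _)] at h2
  exact mul_left_cancel₀ (chr_ne h1 (G.m l)) (by linear_combination h2)

theorem fn_zero {J' : Type} [Fintype J'] {io' : J' → Type} {t : Tr k J' io'} {κ : J' → ℕ}
    {φ : t.Pt → k} (h : Fn κ t φ) (v : t.Vx) (hi : {u | φ (v, u) = 0}.Infinite) (u : Option k) :
    φ (v, u) = 0 := by
  obtain ⟨s, -, h2⟩ := h
  have h3 : s v = 0 := eq_zero_of_inf (D := dot κ (t.vd v)) (hi.mono fun u hu => (h2 (v, u)).trans hu)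
  rw [← h2, Tr.val, h3, hv_zero]

theorem fn_smul {J' : Type} [Fintype J'] {io' : J' → Type} {t : Tr k J' io'} {κ : J' → ℕ}
    {φ : t.Pt → k} (h : Fn κ t φ) (c : k) : Fn κ t fun x => φ x * c := by
  obtain ⟨s, h1, h2⟩ := h
  exact ⟨c • s, h1.smul c, fun x => by rw [Tr.val_smul, h2, mul_comm]⟩

variable {t : Tr k (Option J) io} (ht : t.OK)
include ht

theorem nz_pr (x : t.Pt) : NZ (prP (t.ev x)) := fun j => ht.ev_ne x (some j)

theorem par_of_inf (v : t.Vx) {z : Pnt (bs io) k}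
    (h : {u | Par (prP (t.ev (v, u))) z}.Infinite) (u : Option k) : Par (prP (t.ev (v, u))) z :=
  fun j i i' => sub_eq_zero.1 (fn_zero ((fn_smul (fn_ev ht (some j) i) (z j i')).sub
    (fn_smul (fn_ev ht (some j) i') (z j i))) v (h.mono fun u' (hu : Par (prP (t.ev (v, u'))) z) =>
      sub_eq_zero.2 (hu j i i')) u)

variable [Infinite k] {Z : Set (Pnt (bs io) k)} (hZ : Z.Finite)
  (hb : ∀ x, ¬ Gd G (t.ev x) → ∃ z ∈ Z, NZ z ∧ Par (prP (t.ev x)) z)
include hZ hb

/-- a vertex which contains a bad point is contracted -/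
theorem const_of_bad (v : t.Vx) {u₀ : Option k} (h : ¬ Gd G (t.ev (v, u₀))) (u : Option k) :
    Par (prP (t.ev (v, u))) (prP (t.ev (v, u₀))) := by
  by_cases h1 : ∃ z, NZ z ∧ {u | Par (prP (t.ev (v, u))) z}.Infinite
  · obtain ⟨z, h2, h3⟩ := h1
    exact fun j => (par_of_inf ht v h3 u j).trans (par_of_inf ht v h3 u₀ j) (h2 j)
  push Not at h1
  have h2 : {u | ¬ Gd G (t.ev (v, u))}.Finite :=
    ((hZ.subset (Set.sep_subset Z NZ)).biUnion fun z hz => h1 z hz.2).subset fun u hu => by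
      obtain ⟨z, h3, h4, h5⟩ := hb _ hu
      exact Set.mem_biUnion (show z ∈ {z ∈ Z | NZ z} from ⟨h3, h4⟩) h5
  refine absurd (fun l a b => sub_eq_zero.1 ?_) h
  have h3 := fun a b => ((fn_ev ht none a).mul ht (fn_pv ht (mh_upq (G.hom l b))))
  have h4 := fn_zero ((h3 a b).sub (h3 b a)) v (h2.infinite_compl.mono fun u hu => by
    have h5 := not_not.1 hu l a b
    simp only [Set.mem_setOf_eq, pv_upq]
    exact sub_eq_zero.2 h5) u₀
  simpa only [pv_upq] using h4

/-- a section which vanishes at the good points and not at a given bad point -/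
theorem exists_sec {x₀ : t.Pt} (h : ¬ Gd G (t.ev x₀)) : ∃ φ, Fn (Pi.single none 1) t φ ∧
    φ x₀ ≠ 0 ∧ ∀ x, Gd G (t.ev x) → φ x = 0 := by
  classical
  obtain ⟨l, a, b, h1⟩ : ∃ l a b, t.ev x₀ none a * pv (prP (t.ev x₀)) (G.q l b) ≠
      t.ev x₀ none b * pv (prP (t.ev x₀)) (G.q l a) := by
    by_contra h2
    push Not at h2
    exact h h2
  let z := prP (t.ev x₀)
  let ψ : t.Pt → k := fun x => t.ev x none a * pv z (G.q l b) - t.ev x none b * pv z (G.q l a)
  have hψ : Fn (Pi.single none 1) t ψ :=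
    (fn_smul (fn_ev ht none a) _).sub (fn_smul (fn_ev ht none b) _)
  have h2 : ∀ x, Gd G (t.ev x) → (if Par (prP (t.ev x)) z then ψ x else 0) = 0 := fun x hx => by
    split_ifs with h3
    · exact sub_eq_zero.2 (wd_of_par G h3 (nz_pr ht x) (nz_pr ht x₀) (hx l) a b)
    · rfl
  refine ⟨fun x => if Par (prP (t.ev x)) z then ψ x else 0, fn_of ht (fun v => ?_)
    fun x y hxy => ?_, ?_, h2⟩
  · by_cases h3 : ∀ u, Par (prP (t.ev (v, u))) z
    · obtain ⟨s, h4, h5⟩ := hψ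
      exact ⟨s v, h4.natDegree_le v, fun u => (h5 (v, u)).trans (if_pos (h3 u)).symm⟩
    · refine ⟨0, by simp, fun u => (hv_zero _ _).trans (Eq.symm ?_)⟩
      by_cases h4 : Gd G (t.ev (v, u))
      · exact h2 _ h4
      · exact if_neg fun h5 => h3 fun u' j => (const_of_bad G ht hZ hb v h4 u' j).trans
          (wd_symm (h5 j)) (nz_pr ht (v, u) j)
  · have h3 : t.ev x = t.ev y := _root_.funext fun j => _root_.funext (hxy.1 j)
    simp only [ψ, h3]
  · exact (if_pos fun j i i' => mul_comm _ _).trans_ne (sub_ne_zero.2 h1)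

omit ht hZ hb in
theorem wd_q {y : Pnt (bs io) k} (hy : NZ y) (h : T.On y) (l l' : G.L) :
    Wd (fun a => pv y (G.q l a)) fun a => pv y (G.q l' a) := fun a b => by
  by_cases h1 : ∃ a, pv y (G.q l a) ≠ 0
  · have h2 := Emb71.pv_eq_zero (G.sec k y l hy h h1) (G.idq l' a b)
    have h3 : ∀ (y' : Pnt io k) (p q p' q' : MvPolynomial (Vr io) ℂ),
        pv y' (p * q - p' * q') = pv y' p * pv y' q - pv y' p' * pv y' q' := fun _ _ _ _ _ => by
      simp only [pv, map_sub, map_mul]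
    have h4 : ∀ (y' : Pnt io k) (a : io none), pv y' (MvPolynomial.X ⟨none, a⟩) = y' none a :=
      fun _ _ => MvPolynomial.aeval_X _ _
    rw [h3, h4, h4, pv_upq, pv_upq] at h2
    exact sub_eq_zero.1 h2
  · push Not at h1
    simp only [h1, zero_mul]

omit ht hZ hb in
/-- the first approximation -/
theorem exists_G {t : Tr k J (bs io)} (ht : t.OK) (hc : ∀ x, ∃ l a, pv (t.ev x) (G.q l a) ≠ 0) :
    ∃ (κ : J → ℕ) (g : io none → MvPolynomial (Vr (bs io)) ℂ), (∀ a, MH (g a) κ) ∧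
      (∀ v, ∃ a, pv (t.ev (v, none)) (g a) ≠ 0) ∧ ∀ y : Pnt (bs io) k, NZ y → T.On y →
      ∀ l, Wd (fun a => pv y (g a)) fun a => pv y (G.q l a) := by
  classical
  choose l a h1 using fun v => hc (v, none)
  let H := fun l : G.L => MvPolynomial.weightedHomogeneousSubmodule ℂ
    (fun v : Vr (bs io) => (Pi.single v.1 1 : J → ℕ)) (∑ l' ∈ Finset.univ.erase l, G.m l')
  let φ : t.Vx → (∀ l, H l) →ₗ[ℂ] k := fun v =>
    { toFun := fun μ => ∑ l, pv (t.ev (v, none)) (μ l) * pv (t.ev (v, none)) (G.q l (a v))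
      map_add' := fun μ μ' => by simp [pv, add_mul, Finset.sum_add_distrib]
      map_smul' := fun c μ => by simp [pv, Finset.smul_sum] }
  obtain ⟨μ, hμ⟩ := Submodule.exists_forall_notMem_of_forall_ne_top
    (fun v => LinearMap.ker (φ v)) fun v h => by
      choose i hi using ht.ev_ne (v, none)
      let κ := ∑ l' ∈ Finset.univ.erase (l v), G.m l'
      have h2 : (∏ j, MvPolynomial.X ⟨j, i j⟩ ^ κ j) ∈ H (l v) := by
        have := MvPolynomial.IsWeightedHomogeneous.prod (R := ℂ) Finset.univ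
          (fun j => MvPolynomial.X (⟨j, i j⟩ : Vr (bs io)) ^ κ j)
          (fun j => κ j • (Pi.single j 1 : J → ℕ))
          (w := fun v : Vr (bs io) => (Pi.single v.1 1 : J → ℕ)) fun j _ =>
          (MvPolynomial.isWeightedHomogeneous_X ℂ _ _).pow _
        rwa [show ∑ j, κ j • (Pi.single j 1 : J → ℕ) = κ from
          _root_.funext fun j => by simp [Finset.sum_apply, Pi.single_apply]] at this
      have h3 : φ v (Pi.single (l v) ⟨_, h2⟩) = 0 := h.ge Submodule.mem_top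
      change ∑ _, _ = 0 at h3
      rw [Finset.sum_eq_single (l v) (fun l' _ hl => by simp [hl, pv]) (by simp),
        Pi.single_eq_same] at h3
      refine mul_ne_zero ?_ (h1 v) h3
      simp only [pv, map_prod, map_pow, MvPolynomial.aeval_X]
      exact Finset.prod_ne_zero_iff.2 fun j _ => pow_ne_zero _ (hi j)
  refine ⟨∑ l, G.m l, fun a => ∑ l, (μ l).1 * G.q l a, fun a =>
    MvPolynomial.IsWeightedHomogeneous.sum _ _ _ fun l _ => ?_, fun v => ⟨a v, fun h => hμ v ?_⟩,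
    fun y h2 h3 l a b => ?_⟩
  · rw [← Finset.sum_erase_add _ _ (Finset.mem_univ l)]
    exact MvPolynomial.IsWeightedHomogeneous.mul (μ l).2 (G.hom l a)
  · simp only [pv, map_sum, map_mul] at h
    exact h
  · have h4 := fun l' => wd_q G h2 h3 l' l a b
    simp only [pv, map_sum, map_mul, Finset.sum_mul, mul_assoc] at h4 ⊢
    exact Finset.sum_congr rfl fun l' _ => by rw [h4]

end Tree

variable {L I : Type} [Field L] [Algebra ℂ L] {W : RZ ℂ L} (ξ : Dat (bs io) d I L)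
  (z : Option L → Pnt (bs io) (Rf W))

/-- the forms `F` are good at `t` -/
def Good (n : ℕ) (F : io none → L[X]) (t : Option L) : Prop :=
  ∃ w, Rv W (fun a => hv n (F a) t) w ∧ ∀ l, Wd w fun a => pv (z t) (G.q l a)

/-- the datum with the new forms -/
def ext {n : ℕ} {F : io none → L[X]} (h1 : ∀ a, (F a).natDegree ≤ n)
    (h2 : ∃ a, (F a).coeff n ≠ 0) (h3 : Ideal.span (Set.range F) = ⊤) : Dat io (exd d n) I L where
  f j := match j with
    | none => F
    | some j => ξ.f j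
  x := ξ.x
  cp := ⟨fun j => by cases j; exacts [h1, ξ.cp.1 _], fun j => by cases j; exacts [h2, ξ.cp.2.1 _],
    fun j => by cases j; exacts [h3, ξ.cp.2.2 _]⟩

variable {ξ z} [IsAlgClosed L] (hz : ∀ t j, Rv W (ξ.pt t j) (z t j))
  {Z : Set (Pnt (bs io) (Rf W))} (hZ : Z.Finite)
include hz hZ

/-- a bad point can be made a common root -/
theorem step {n : ℕ} {F : io none → L[X]} (h1 : ∀ a, (F a).natDegree ≤ n)
    (h2 : ∃ a, (F a).coeff n ≠ 0) (h3 : Ideal.span (Set.range F) = ⊤)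
    (hb : ∀ t, ¬ Good G z n F t → z t ∈ Z) {p : Option L} (hp : ¬ Good G z n F p) :
    ∃ F' : io none → L[X], (∀ a, (F' a).natDegree ≤ n) ∧ (∀ a, hv n (F' a) p = 0) ∧
      ∀ t, Good G z n F t → Good G z n F' t := by
  have := (rW W).isAlgClosed
  obtain ⟨R, hR⟩ := exists_lift (W := W) (cop_of_cp (ext ξ h1 h2 h3).cp)
  have hn : ∀ t, NZ (z t) := fun t j => (hz t j).choose_spec.2.2
  have hpar : ∀ t, Par (prP (R.T.ev (R.sp t))) (z t) := fun t j i i' => by
    obtain ⟨s, -, hs⟩ := (hz t j).par (rv_red R t (some j))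
    change R.T.ev _ _ _ * _ = R.T.ev _ _ _ * _
    rw [hs, hs]
    ring
  have hg : ∀ t, Good G z n F t ↔ Gd G (R.T.ev (R.sp t)) := fun t => by
    refine ⟨fun ⟨w, h4, h5⟩ l => ?_, fun h => ⟨_, rv_red R t none, fun l =>
      wd_of_par G (hpar t) (nz_pr R.ok _) (hn t) (h l)⟩⟩
    obtain ⟨s, -, hs⟩ := h4.par (rv_red R t none)
    refine wd_of_par G (fun j => wd_symm (hpar t j)) (hn t) (nz_pr R.ok _) fun a b => ?_
    rw [hs, hs, mul_assoc, mul_assoc, h5 l a b]
  obtain ⟨φ, ⟨s, h4, h5⟩, h6, h7⟩ := exists_sec G R.ok hZ (fun x hx => by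
    obtain ⟨t, ht⟩ := R.surj x
    have e : R.T.ev x = R.T.ev (R.sp t) := _root_.funext fun j => _root_.funext (ht.1 j)
    rw [e] at hx ⊢
    exact ⟨z t, hb t fun h => hx ((hg t).1 h), hn t, hpar t⟩) fun h => hp ((hg p).2 h)
  obtain ⟨ε, h8, h9⟩ := hR _ s h4
  have e1 : dot (Pi.single none 1) (exd d n) = n := by simp [dot, Pi.single_apply, exd]
  have e2 : ∀ t, R.nv (Pi.single none 1) ε t = R.nrm t none * hv n ε t := fun t => by
    rw [Red.nv, e1, Finset.prod_eq_single none (fun j _ hj => by simp [hj]) (by simp)]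
    simp
  simp only [e1, e2, h5] at h8 h9
  have h10 : W.v (R.nrm p none * hv n ε p) = 1 :=
    (Pl.r_ne_zero_iff (p := plV W)).1 ((h9 p).2.symm ▸ h6)
  have h11 : R.nrm p none * hv n ε p ≠ 0 := fun h => by simp [h] at h10
  have h12 : ∀ a, hv n (F a) p / hv n ε p ∈ W.1 := fun a => by
    rw [← mul_div_mul_left _ _ (left_ne_zero_of_mul h11), ← RZ.le_one_iff, map_div₀, h10, div_one]
    exact RZ.le_one_iff.2 (R.nrm_mem p none a)
  have e3 : ∀ a t, hv n (F a + C (-(hv n (F a) p / hv n ε p)) * ε) t =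
      hv n (F a) t - hv n (F a) p / hv n ε p * hv n ε t := fun a t => by
    rw [hv_add, hv_C_mul]
    ring
  refine ⟨fun a => F a + C (-(hv n (F a) p / hv n ε p)) * ε, fun a => (natDegree_add_le _ _).trans
    (max_le (h1 a) ((natDegree_C_mul_le _ _).trans h8)), fun a => ?_, fun t ht => ?_⟩
  · rw [e3, div_mul_cancel₀ _ (right_ne_zero_of_mul h11), sub_self]
  · have h13 := (hg t).1 ht
    have h14 : ∀ a, R.nrm t none * hv n (F a) t ∈ W.1 := R.nrm_mem t none
    refine ⟨R.T.ev (R.sp t) none, ⟨R.nrm t none, fun a => ?_, fun a => ?_, R.ok.ev_ne _ _⟩,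
      fun l => wd_of_par G (hpar t) (nz_pr R.ok _) (hn t) (h13 l)⟩
    · simp only []
      rw [e3, mul_sub, mul_left_comm]
      exact sub_mem (h14 a) (mul_mem (h12 a) (h9 t).1)
    · simp only []
      rw [e3, mul_sub, mul_left_comm, Pl.r_sub (p := plV W) (h14 a) (mul_mem (h12 a) (h9 t).1),
        Pl.r_mul (p := plV W) (h12 a) (h9 t).1, (h9 t).2, h7 _ h13, mul_zero, sub_zero]
      exact R.ev_sp t none a

theorem exists_good (n : ℕ) : ∀ F : io none → L[X], (∀ a, (F a).natDegree ≤ n) →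
    (∀ t, ¬ Good G z n F t → z t ∈ Z) → (∃ t, Good G z n F t) →
    ∃ (m : ℕ) (F' : io none → L[X]), (∀ a, (F' a).natDegree ≤ m) ∧ (∃ a, (F' a).coeff m ≠ 0) ∧
      Ideal.span (Set.range F') = ⊤ ∧ ∀ t, Good G z m F' t := by
  induction n using Nat.strong_induction_on with
  | _ n ih =>
  have key : ∀ F : io none → L[X], (∀ a, (F a).natDegree ≤ n) →
      (∀ t, ¬ Good G z n F t → z t ∈ Z) → (∃ t, Good G z n F t) → ∀ p, (∀ a, hv n (F a) p = 0) →
      ∃ (m : ℕ) (F' : io none → L[X]), (∀ a, (F' a).natDegree ≤ m) ∧ (∃ a, (F' a).coeff m ≠ 0) ∧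
        Ideal.span (Set.range F') = ⊤ ∧ ∀ t, Good G z m F' t := by
    rintro F h1 h2 ⟨t₀, h3⟩ p hp
    obtain ⟨m, hm, F₁, h4, h5⟩ := exists_div h1 hp (h3.choose_spec.1.ne.imp fun a h => ⟨t₀, h⟩)
    have h6 : ∀ t, Good G z n F t → Good G z m F₁ t := fun t ⟨w, h7, h8⟩ => by
      obtain ⟨μ, hμ⟩ := h5 t h7.ne
      exact ⟨w, h7.of_mul hμ, h8⟩
    exact ih m hm F₁ h4 (fun t ht => h2 t fun h => ht (h6 t h)) ⟨t₀, h6 t₀ h3⟩
  rintro F h1 h2 ⟨t₀, h3⟩
  by_cases h4 : ∃ p, ∀ a, hv n (F a) p = 0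
  · obtain ⟨p, hp⟩ := h4
    exact key F h1 h2 ⟨t₀, h3⟩ p hp
  push Not at h4
  have h5 : Ideal.span (Set.range F) = ⊤ :=
    Emb96.span_eq_top (RingHom.id L) fun x => by simpa using h4 (some x)
  by_cases h6 : ∀ t, Good G z n F t
  · exact ⟨n, F, h1, h4 none, h5, h6⟩
  push Not at h6
  obtain ⟨p, hp⟩ := h6
  obtain ⟨F', h7, h8, h9⟩ := step G hz hZ h1 (h4 none) h5 h2 hp
  exact key F' h7 (fun t ht => h2 t fun h => ht (h9 t h)) ⟨t₀, h9 t₀ h3⟩ p h8

omit hz hZ in
/-- **LOC** -/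
theorem locStmt : LocStmt := by
  intro J _ _ io _ _ A A' _ _ T T' d G L I _ _ _ ξ W hT
  have := (rW W).isAlgClosed
  obtain ⟨R⟩ := exists_red (rW W) (cop_of_cp ξ.cp)
  let z : Option L → Pnt (bs io) (Rf W) := fun t => R.T.ev (R.sp t)
  have hz : ∀ t j, Rv W (ξ.pt t j) (z t j) := rv_red R
  have h1 : ∀ x, ∃ t, R.T.ev x = z t := fun x => (R.surj x).imp fun t ht =>
    _root_.funext fun j => _root_.funext (ht.1 j)
  have h2 : ∀ t, T.On (z t) := fun t a => (sm_iff (hz t) (T.hom a)).2 (hT t a)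
  have hc := G.cov _ R.T R.ok R.deg fun x => (h1 x).elim fun t ht => ht ▸ h2 t
  obtain ⟨κ, g, h3, h4, h5⟩ := exists_G G R.ok hc
  choose F h6 h7 using fun a => Emb10.exists_form ξ (h3 a)
  have h8 : ∀ t, (∃ a, pv (z t) (g a) ≠ 0) → Good G z (dot κ d) F t := fun t ht => by
    obtain ⟨c, -, h9⟩ := red_pv (hz t) κ
    exact ⟨fun a => pv (z t) (g a), ⟨c, fun a => by simpa only [h7] using (h9 _ (h3 a)).1,
      fun a => by simpa only [h7] using (h9 _ (h3 a)).2, ht⟩,
      h5 _ (nz_ev _ R.ok _) (h2 t)⟩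
  have hZ : (R.T.ev '' {x | ∀ a, pv (R.T.ev x) (g a) = 0}).Finite := by
    refine Set.Finite.image _ ((Set.finite_iUnion fun v : R.T.Vx => Set.Finite.image (Prod.mk v)
      (s := {u | ∀ a, pv (R.T.ev (v, u)) (g a) = 0}) ?_).subset fun x hx =>
      Set.mem_iUnion.2 ⟨x.1, x.2, hx, rfl⟩)
    obtain ⟨a, ha⟩ := h4 v
    by_contra h
    exact ha (fn_zero (fn_pv R.ok (h3 a)) v (Set.Infinite.mono
      (fun u (hu : ∀ a, pv (R.T.ev (v, u)) (g a) = 0) => hu a) h) none)
  obtain ⟨n, F', a1, a2, a3, a4⟩ := exists_good G hz hZ _ F h6 (fun t ht => ⟨R.sp t, fun a => by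
    by_contra h
    exact ht (h8 t ⟨a, h⟩), rfl⟩) ⟨none, h8 _ (by
      simp only [z, R.sp_none]
      exact h4 _)⟩
  refine ⟨n, ext ξ a1 a2 a3, rfl, fun t b => ?_⟩
  obtain ⟨w, b1, b2⟩ := a4 t
  obtain ⟨l, b3⟩ := hc (R.sp t)
  obtain ⟨μ, hμ⟩ := (b2 l).eq_smul b3
  have b4 : μ ≠ 0 := fun h => by
    obtain ⟨a, ha⟩ := b1.choose_spec.2.2
    exact ha (by rw [hμ, h, zero_mul])
  refine (sm_iff (z := exP (z t) w) (fun j => by cases j; exacts [b1, hz t _]) (T'.hom b)).1 ?_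
  have b5 := (on_scl_iff T' (c := fun j => j.elim μ fun _ => 1) fun j => by
    cases j; exacts [b4, one_ne_zero]).2 (G.sec _ (z t) l (nz_ev _ R.ok _) (h2 t) b3) b
  convert b5 using 2
  refine _root_.funext fun j => _root_.funext fun i => ?_
  cases j
  exacts [hμ i, (one_mul _).symm]

end Crest.Agent.X262.Lft36
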