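import Crest.Agent.X262.Bub96.Lat
import Crest.Agent.X262.Vb.Bas0

/-!
# Row 262, road B, EMB, local lifting (helper36), part 1: reductions

* `Rv W u w`  : `w` is the reduction of the direction of `u`;  `Rv.par`, `sm_iff`;
* `exists_lift` : a reduction tree on which every section is the reduction of a form;
* `eq_zero_of_inf`, `exists_div` : binary forms.
-/

set_option autoImplicit false
set_option linter.unusedSectionVars false

noncomputable section

namespace Crest.Agent.X262.Lft36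

open Polynomial Crest.Agent.X277 Crest.Agent.X277.BD Crest.Agent.X277.BD.Cyc
open Crest.Agent.X262.Vb Crest.Agent.X262.Bub96 Crest.Agent.X262.Bub96.Tr
open Crest.Agent.X262.Node22 (scl chr pv_scl chr_ne)
open Crest.Agent.X262.Tree87 (vals finrank_sec finite_sec)

section Forms

variable {k : Type} [Field k]

theorem eq_zero_of_inf {D : ℕ} {σ : k[X]} (h : {u : Option k | hv D σ u = 0}.Infinite) :
    σ = 0 := by
  refine eq_zero_of_infinite_isRoot _ fun h1 => h (((h1.image some).insert none).subset ?_)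
  rintro (_ | u) hu
  · exact Set.mem_insert _ _
  · exact Set.mem_insert_of_mem _ ⟨u, hu, rfl⟩

/-- division by the linear form of a common root -/
theorem exists_div {ι : Type} {n : ℕ} {F : ι → k[X]} (hF : ∀ a, (F a).natDegree ≤ n)
    {p : Option k} (hp : ∀ a, hv n (F a) p = 0) (h0 : ∃ a t, hv n (F a) t ≠ 0) :
    ∃ m < n, ∃ F₁ : ι → k[X], (∀ a, (F₁ a).natDegree ≤ m) ∧
      ∀ t, (∃ a, hv n (F a) t ≠ 0) → ∃ μ, ∀ a, hv n (F a) t = μ * hv m (F₁ a) t := by
  rcases n with _ | m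
  · obtain ⟨a, t, h⟩ := h0
    have h1 := hp a
    rw [eq_C_of_natDegree_le_zero (hF a)] at h h1
    exact absurd (by cases p <;> cases t <;> simpa using h1) h
  refine ⟨m, m.lt_succ_self, ?_⟩
  rcases p with _ | r
  · refine ⟨F, fun a => natDegree_le_iff_coeff_eq_zero.2 fun l hl => ?_, ?_⟩
    · rcases (Nat.succ_le_of_lt hl).eq_or_lt with h | h
      · exact h ▸ hp a
      · exact coeff_eq_zero_of_natDegree_lt ((hF a).trans_lt h)
    · rintro (_ | t) ⟨a, ha⟩
      · exact absurd (hp a) ha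
      · exact ⟨1, fun a => (one_mul _).symm⟩
  · choose F₁ h1 using fun a => dvd_iff_isRoot.2 (hp a)
    have h2 : ∀ a, (F₁ a).natDegree ≤ m := fun a => by
      rcases eq_or_ne (F₁ a) 0 with h | h
      · simp [h]
      · have h3 := hF a
        rw [h1, natDegree_mul (X_sub_C_ne_zero r) h, natDegree_X_sub_C] at h3
        omega
    exact ⟨F₁, h2, fun t _ => ⟨hv 1 (X - C r) t, fun a => by
      rw [h1, add_comm m 1, hv_mul (natDegree_X_sub_C_le r) (h2 a)]⟩⟩

end Forms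

variable {L : Type} [Field L] [Algebra ℂ L] (W : RZ ℂ L)

/-- the reduction map of a valuation ring -/
def rW : Rd L (Rf W) := ⟨W.1, (plV W).φ, (plV W).ker, surj_plV W⟩

theorem rW_p (x : L) : (rW W).p x = (plV W).r x := rfl

/-- `w` is the reduction of the direction of `u` -/
def Rv {ι : Type} (u : ι → L) (w : ι → Rf W) : Prop :=
  ∃ c, (∀ a, c * u a ∈ W.1) ∧ (∀ a, (plV W).r (c * u a) = w a) ∧ ∃ a, w a ≠ 0

variable {W}

section Vec

variable {ι : Type} {u u' : ι → L} {w w' : ι → Rf W}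

theorem Rv.ne (h : Rv W u w) : ∃ a, u a ≠ 0 := by
  obtain ⟨c, -, h1, a, h2⟩ := h
  exact ⟨a, fun h => h2 (by rw [← h1, h, mul_zero, Pl.r_zero])⟩

theorem Rv.par (h : Rv W u w) (h' : Rv W u w') : ∃ s, s ≠ 0 ∧ ∀ a, w' a = s * w a := by
  obtain ⟨c, h1, h2, a, h3⟩ := h
  obtain ⟨c', h4, h5, b, h6⟩ := h'
  rw [← h2] at h3
  have h7 : W.v (c * u a) = 1 := Pl.r_ne_zero_iff.1 h3
  have h8 : c * u a ≠ 0 := fun h => by simp [h] at h7
  have h9 : c' * u a / (c * u a) ∈ W.1 := RZ.le_one_iff.1 (by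
    rw [map_div₀, h7, div_one]
    exact RZ.le_one_iff.2 (h4 a))
  have key : ∀ x, w' x = (plV W).r (c' * u a / (c * u a)) * w x := fun x => by
    rw [← h5, ← h2, ← Pl.r_mul (p := plV W) h9 (h1 x)]
    congr 1
    have := left_ne_zero_of_mul h8
    have := right_ne_zero_of_mul h8
    field_simp
  exact ⟨_, fun h => h6 (by rw [key, h, zero_mul]), key⟩

theorem Rv.of_mul {μ : L} (h : Rv W u w) (hu : ∀ a, u a = μ * u' a) : Rv W u' w := by
  obtain ⟨c, h1, h2, h3⟩ := h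
  exact ⟨c * μ, fun a => by rw [mul_assoc, ← hu]; exact h1 a,
    fun a => by rw [mul_assoc, ← hu]; exact h2 a, h3⟩

end Vec

variable {J : Type} [Fintype J] [DecidableEq J] {io : J → Type} [∀ j, Fintype (io j)]
  [∀ j, DecidableEq (io j)] {d κ : J → ℕ} {I : Type}

theorem red_pv {y : Pnt io L} {z : Pnt io (Rf W)} (h : ∀ j, Rv W (y j) (z j)) (κ : J → ℕ) :
    ∃ c : L, W.v c * (lw κ y).val W = 1 ∧ ∀ q, MH q κ →
      c * pv y q ∈ W.1 ∧ (plV W).r (c * pv y q) = pv z q := by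
  have hy : NZ y := fun j => (h j).ne
  choose c h1 h2 h3 using h
  have hp : Prim W (scl c y) := fun j => ⟨h1 j, (h3 j).imp fun a ha =>
    (Pl.r_ne_zero_iff (p := plV W)).1 ((h2 j a).symm ▸ ha)⟩
  have hc : ∀ j, c j ≠ 0 := fun j h => by
    obtain ⟨a, ha⟩ := h3 j
    exact ha (by rw [← h2, h, zero_mul, Pl.r_zero])
  refine ⟨chr c κ, ?_, fun q hq => ?_⟩
  · have h4 := hp.val_lw κ
    rwa [lw_scl hy hc, BD.val_add, val_pr (chr_ne hc κ), mul_comm] at h4
  · rw [← pv_scl hq]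
    refine ⟨pv_mem (fun j => (hp j).1) q, ?_⟩
    rw [r_pv (lnr_plV W) fun j => (hp j).1]
    exact congrArg (pv · q) (_root_.funext fun j => _root_.funext (h2 j))

theorem sm_iff {y : Pnt io L} {z : Pnt io (Rf W)} (h : ∀ j, Rv W (y j) (z j))
    {q : MvPolynomial (Vr io) ℂ} (hq : MH q κ) :
    pv z q = 0 ↔ W.v (pv y q) < (lw κ y).val W := by
  obtain ⟨c, h1, h2⟩ := red_pv h κ
  rw [← (h2 q hq).2, Pl.r_eq_zero (p := plV W) (h2 q hq).1]
  change W.v _ < 1 ↔ _
  rw [map_mul, ← h1]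
  exact mul_lt_mul_iff_right₀ (zero_lt_iff.2 (left_ne_zero_of_mul_eq_one h1))

theorem rv_red {F : (j : J) → io j → L[X]} (A : Red (rW W) d F) (t : Option L) (j : J) :
    Rv W (fun i => hv (d j) (F j i) t) (A.T.ev (A.sp t) j) :=
  ⟨A.nrm t j, A.nrm_mem t j, A.ev_sp t j, A.ok.ev_ne _ j⟩

/-- every section on the reduction tree is the reduction of a form -/
theorem exists_lift [IsAlgClosed L] {F : (j : J) → io j → L[X]} (hF : Cop d F) :
    ∃ A : Red (rW W) d F, ∀ κ s, A.T.IsSec κ s → ∃ σ : L[X], σ.natDegree ≤ dot κ d ∧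
      ∀ t, A.nv κ σ t ∈ W.1 ∧ (plV W).r (A.nv κ σ t) = Tr.val κ A.T s (A.sp t) := by
  classical
  have := (rW W).isAlgClosed
  have : CharZero (Rf W) := charZero_rd W
  obtain ⟨A, hA⟩ := exists_red' (rW W) hF
  refine ⟨A, fun κ s hs => ?_⟩
  let N := Finset.univ.sup κ
  let Y : Finset (Option L) := insert none
    (((Finset.univ ×ˢ Finset.range (nb io d N)).biUnion fun x =>
      (lf F x.1 x.2).roots.toFinset).image some)
  have hN : A.T.Norming κ (A.sp '' (Y : Set (Option L))) :=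
    norming_roots hF A hA ⟨none, by simp [Y]⟩ (fun j c hc h0 y hy => by
      simp only [Y, Finset.coe_insert, Finset.coe_image, Set.mem_insert_iff]
      exact Or.inr ⟨y, Finset.mem_biUnion.2 ⟨(j, c), by simpa using hc,
        Multiset.mem_toFinset.2 ((mem_roots h0).2 hy)⟩, rfl⟩)
      fun j => Finset.le_sup (f := κ) (Finset.mem_univ j)
  let φ : L[X] →ₗ[L] (Y → L) :=
    { toFun := fun σ q => A.nv κ σ q
      map_add' := fun a b => _root_.funext fun q => by simp [Red.nv, hv_add, mul_add]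
      map_smul' := fun c a => _root_.funext fun q => by
        simp only [Red.nv, hv_smul, Pi.smul_apply, smul_eq_mul, RingHom.id_apply]
        ring }
  have hdeg : ∀ σ ∈ degreeLE L (dot κ d : ℕ), σ.natDegree ≤ dot κ d := fun σ hσ =>
    natDegree_le_of_degree_le (mem_degreeLE.1 hσ)
  have key : ∀ σ ∈ degreeLE L (dot κ d : ℕ), (∀ q, φ σ q ∈ W.1) → (∀ t, A.nv κ σ t ∈ W.1) ∧
      ∃ s, A.T.IsSec κ s ∧ ∀ t, (plV W).r (A.nv κ σ t) = Tr.val κ A.T s (A.sp t) := fun σ hσ h => by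
    have h1 := A.bound hN (hdeg σ hσ) fun y hy => h ⟨y, hy⟩
    exact ⟨h1, A.exists_sec (hdeg σ hσ) h1⟩
  have hle : redS (plV W) ((degreeLE L (dot κ d : ℕ)).map φ) ≤
      (A.T.Sec κ).map (vals A.T (fun q : Y => A.sp q) κ) := by
    refine Submodule.span_le.2 ?_
    rintro _ ⟨_, ⟨σ, hσ, rfl⟩, h, rfl⟩
    obtain ⟨-, s, h1, h2⟩ := key σ hσ h
    exact ⟨s, h1, _root_.funext fun q => (h2 q).symm⟩
  have := finite_sec κ A.T
  have hge := Submodule.eq_of_le_of_finrank_le hle ((Submodule.finrank_map_le _ _).trans (by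
    rw [finrank_sec κ A.ok, A.deg, Tree87.finrank_redS, finrank_map_of_inj _ _ fun σ hσ h0 => ?_,
      ← degreeLT_succ_eq_degreeLE, (degreeLTEquiv L _).finrank_eq, Module.finrank_fin_fun]
    by_contra h1
    obtain ⟨c, -, s, h2, h3, h4⟩ := A.sec κ σ (hdeg σ hσ) h1
    refine h3 (hN s h2 ?_)
    rintro _ ⟨y, hy, rfl⟩
    have h5 : A.nv κ σ y = 0 := congrFun h0 ⟨y, hy⟩
    rw [← (h4 y).2, mul_assoc, show _ * hv _ σ y = 0 from h5, mul_zero, Rd.p_zero]))
  obtain ⟨_, ⟨σ, hσ, rfl⟩, h1, h2⟩ := exists_of_mem_redS (surj_plV W)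
    (hge.ge (Submodule.mem_map_of_mem (show s ∈ A.T.Sec κ from hs)))
  obtain ⟨h3, s', h4, h5⟩ := key σ hσ h1
  have h6 : s' + (-1 : Rf W) • s = 0 := hN _ (h4.add (hs.smul _)) (by
    rintro _ ⟨y, hy, rfl⟩
    rw [Tr.val_add, Tr.val_smul, ← h5]
    have h7 : Tr.val κ A.T s (A.sp y) = (plV W).r (A.nv κ σ y) := congrFun h2 ⟨y, hy⟩
    rw [h7]
    ring)
  rw [neg_one_smul, add_neg_eq_zero] at h6
  exact ⟨σ, hdeg σ hσ, fun t => ⟨h3 t, h6 ▸ h5 t⟩⟩

end Crest.Agent.X262.Lft36
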